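import Mathlib
import Vale.Agent.P204.Defs

/-!
# P204, Whitney distance: Taylor bounds on a compact convex set and bilinear telescopes
-/

set_option maxSynthPendingDepth 3

open scoped ContDiff

namespace Vale.Agent.P204.Core.Whitney

variable {F : Type*} [NormedAddCommGroup F] [NormedSpace ℝ F]
variable {X : Type*} [NormedAddCommGroup X] [NormedSpace ℝ X]

theorem hasFDerivAt_of_smooth {f : X → F} {U : Set X} (hf : ContDiffOn ℝ ∞ f U) (hU : IsOpen U)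
    {x : X} (hx : x ∈ U) : HasFDerivAt f (fderiv ℝ f x) x :=
  ((hf.contDiffAt (hU.mem_nhds hx)).differentiableAt (by simp)).hasFDerivAt

theorem smooth_fderiv {f : X → F} {U : Set X} (hf : ContDiffOn ℝ ∞ f U) (hU : IsOpen U) :
    ContDiffOn ℝ ∞ (fderiv ℝ f) U :=
  hf.fderiv_of_isOpen hU (by simp)

theorem snd_symm {f : X → F} {U : Set X} (hf : ContDiffOn ℝ ∞ f U) (hU : IsOpen U)
    {x : X} (hx : x ∈ U) (u v : X) :
    fderiv ℝ (fderiv ℝ f) x u v = fderiv ℝ (fderiv ℝ f) x v u :=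
  (hf.contDiffAt (hU.mem_nhds hx)).isSymmSndFDerivAt (by rw [minSmoothness_of_isRCLikeNormedField]; exact WithTop.coe_le_coe.2 le_top) u v

theorem eq_zero_of_const {f : X → F} {f' : X →L[ℝ] F} {U : Set X} {c : F} (hU : IsOpen U)
    {x : X} (hx : x ∈ U) (hf : HasFDerivAt f f' x) (hc : ∀ y ∈ U, f y = c) : f' = 0 :=
  hf.unique ((hasFDerivAt_const c x).congr_of_eventuallyEq
    (Filter.eventuallyEq_of_mem (hU.mem_nhds hx) fun y hy => hc y hy))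

/-- Value, first and second order bounds on a compact convex set. -/
theorem taylor2 {f : X → F} {U K : Set X} (hf : ContDiffOn ℝ ∞ f U) (hU : IsOpen U)
    (hK : IsCompact K) (hKc : Convex ℝ K) (hKU : K ⊆ U) :
    ∃ C, 0 ≤ C ∧ (∀ x ∈ K, ‖f x‖ ≤ C) ∧ (∀ x ∈ K, ‖fderiv ℝ f x‖ ≤ C) ∧
      (∀ x ∈ K, ∀ y ∈ K, ‖f x - f y‖ ≤ C * ‖x - y‖) ∧
      (∀ x ∈ K, ∀ y ∈ K, ‖f x - f y - fderiv ℝ f y (x - y)‖ ≤ C * ‖x - y‖ ^ 2) := by
  obtain ⟨C₀, h₀⟩ := hK.exists_bound_of_continuousOn (hf.continuousOn.mono hKU)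
  have hs' := smooth_fderiv hf hU
  obtain ⟨C₁, h₁⟩ := hK.exists_bound_of_continuousOn (hs'.continuousOn.mono hKU)
  obtain ⟨C₂, h₂⟩ :=
    hK.exists_bound_of_continuousOn ((smooth_fderiv hs' hU).continuousOn.mono hKU)
  refine ⟨max (max C₀ C₁) (max C₂ 0), le_max_of_le_right (le_max_right _ _),
    fun x hx => (h₀ x hx).trans (le_max_of_le_left (le_max_left _ _)),
    fun x hx => (h₁ x hx).trans (le_max_of_le_left (le_max_right _ _)),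
    fun x hx y hy => ?_, fun x hx y hy => ?_⟩
  · exact (hKc.norm_image_sub_le_of_norm_hasFDerivWithin_le
      (fun z hz => (hasFDerivAt_of_smooth hf hU (hKU hz)).hasFDerivWithinAt) h₁ hy hx).trans
      (mul_le_mul_of_nonneg_right (le_max_of_le_left (le_max_right _ _)) (norm_nonneg _))
  · have hb : ∀ z ∈ K ∩ Metric.closedBall y ‖x - y‖,
        ‖fderiv ℝ f z - fderiv ℝ f y‖ ≤ max C₂ 0 * ‖x - y‖ := fun z hz =>
      (hKc.norm_image_sub_le_of_norm_hasFDerivWithin_le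
        (fun p hp => (hasFDerivAt_of_smooth hs' hU (hKU hp)).hasFDerivWithinAt) h₂ hy hz.1).trans
        (mul_le_mul (le_max_left _ _) (mem_closedBall_iff_norm.1 hz.2) (norm_nonneg _)
          (le_max_right _ _))
    have := (hKc.inter (convex_closedBall y ‖x - y‖)).norm_image_sub_le_of_norm_hasFDerivWithin_le'
      (fun z hz => (hasFDerivAt_of_smooth hf hU (hKU hz.1)).hasFDerivWithinAt) hb
      ⟨hy, Metric.mem_closedBall_self (norm_nonneg _)⟩ ⟨hx, mem_closedBall_iff_norm.2 le_rfl⟩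
    refine this.trans ?_
    rw [mul_assoc, ← sq]
    exact mul_le_mul_of_nonneg_right (le_max_right _ _) (sq_nonneg _)

/-- Third order bound on a compact convex set. -/
theorem taylor3 {f : X → F} {U K : Set X} (hf : ContDiffOn ℝ ∞ f U) (hU : IsOpen U)
    (hK : IsCompact K) (hKc : Convex ℝ K) (hKU : K ⊆ U) :
    ∃ C, 0 ≤ C ∧ ∀ x ∈ K, ∀ y ∈ K,
      ‖f x - f y - fderiv ℝ f y (x - y)
        - (2 : ℝ)⁻¹ • fderiv ℝ (fderiv ℝ f) y (x - y) (x - y)‖ ≤ C * ‖x - y‖ ^ 3 := by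
  obtain ⟨C, hC, -, -, -, hT⟩ := taylor2 (smooth_fderiv hf hU) hU hK hKc hKU
  refine ⟨C, hC, fun x hx y hy => ?_⟩
  set A := fderiv ℝ f y with hA
  set B := fderiv ℝ (fderiv ℝ f) y with hB
  have hd : ∀ z ∈ U, HasFDerivAt
      (fun p => f p - A (p - y) - (2 : ℝ)⁻¹ • B (p - y) (p - y))
      (fderiv ℝ f z - A - B (z - y)) z := by
    intro z hz
    have h1 := (hasFDerivAt_id (𝕜 := ℝ) z).sub_const y
    refine (((hasFDerivAt_of_smooth hf hU hz).sub (A.hasFDerivAt.comp z h1)).sub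
      (((B.hasFDerivAt.comp z h1).clm_apply h1).const_smul (2 : ℝ)⁻¹)).congr_fderiv ?_
    ext v
    simp only [id_eq, ContinuousLinearMap.comp_id, sub_apply, add_apply, smul_apply,
       
      ContinuousLinearMap.flip_apply, Function.comp_apply]
    rw [show B v (z - y) = B (z - y) v from snd_symm hf hU (hKU hy) v (z - y)]
    module
  have hb : ∀ z ∈ K ∩ Metric.closedBall y ‖x - y‖,
      ‖fderiv ℝ f z - A - B (z - y)‖ ≤ C * ‖x - y‖ ^ 2 := fun z hz =>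
    (hT z hz.1 y hy).trans (mul_le_mul_of_nonneg_left
      (pow_le_pow_left₀ (norm_nonneg _) (mem_closedBall_iff_norm.1 hz.2) 2) hC)
  have := (hKc.inter (convex_closedBall y ‖x - y‖)).norm_image_sub_le_of_norm_hasFDerivWithin_le
    (fun z hz => (hd z (hKU hz.1)).hasFDerivWithinAt) hb
    ⟨hy, Metric.mem_closedBall_self (norm_nonneg _)⟩ ⟨hx, mem_closedBall_iff_norm.2 le_rfl⟩
  simp only [sub_self, map_zero, smul_zero, sub_zero] at this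
  calc ‖f x - f y - A (x - y) - (2 : ℝ)⁻¹ • B (x - y) (x - y)‖
      = ‖f x - A (x - y) - (2 : ℝ)⁻¹ • B (x - y) (x - y) - f y‖ := by congr 1; abel
    _ ≤ C * ‖x - y‖ ^ 2 * ‖x - y‖ := this
    _ = C * ‖x - y‖ ^ 3 := by ring

/-- A first order expansion of a bilinear expression. -/
theorem first_order {β β₀ : F →L[ℝ] F →L[ℝ] ℝ} {u u₀ v v₀ : F} {C b p p' r : ℝ}
     
    (e : ‖β - β₀‖ ≤ C * b * r) (e₀ : ‖β₀‖ ≤ C * b)
    (fu : ‖u‖ ≤ C * p) (fu₀ : ‖u₀‖ ≤ C * p) (gu : ‖u - u₀‖ ≤ C * p * r)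
    (fv : ‖v‖ ≤ C * p') (gv : ‖v - v₀‖ ≤ C * p' * r) :
    |β u v - β₀ u₀ v₀| ≤ 3 * C ^ 3 * b * p * p' * r := by
  have hid : β u v - β₀ u₀ v₀ = (β - β₀) u v + β₀ (u - u₀) v + β₀ u₀ (v - v₀) := by
    simp only [map_sub, sub_apply]; ring
  have k : ∀ (g : F →L[ℝ] F →L[ℝ] ℝ) (a a' : F) (A B D : ℝ), ‖g‖ ≤ A → ‖a‖ ≤ B → ‖a'‖ ≤ D →
      |g a a'| ≤ A * B * D := fun g a a' A B D h1 h2 h3 => by
    rw [← Real.norm_eq_abs]
    exact g.le_of_opNorm₂_le_of_le h1 h2 h3 |>.trans_eq (by ring)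
  rw [hid]
  refine (abs_add_three _ _ _).trans ?_
  linarith [k _ u v _ _ _ e fu fv, k _ (u - u₀) v _ _ _ e₀ gu fv, k _ u₀ (v - v₀) _ _ _ e₀ fu₀ gv]

/-- A second order expansion of a bilinear expression. -/
theorem second_order {β β₀ β₁ : F →L[ℝ] F →L[ℝ] ℝ} {u u₀ u₁ v v₀ v₁ : F} {C p p' r : ℝ}
     
    (e : ‖β - β₀ - β₁‖ ≤ C * r ^ 2) (e₀ : ‖β₀‖ ≤ C) (e₁ : ‖β₁‖ ≤ C * r)
    (fu : ‖u‖ ≤ C * p) (fu₀ : ‖u₀‖ ≤ C * p) (gu : ‖u - u₀‖ ≤ C * p * r)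
    (gu₁ : ‖u₁‖ ≤ C * p * r) (gu₂ : ‖u - u₀ - u₁‖ ≤ C * p * r ^ 2)
    (fv : ‖v‖ ≤ C * p') (gv : ‖v - v₀‖ ≤ C * p' * r)
    (gv₂ : ‖v - v₀ - v₁‖ ≤ C * p' * r ^ 2) :
    |β u v - (β₀ u₀ v₀ + β₁ u₀ v₀ + β₀ u₁ v₀ + β₀ u₀ v₁)| ≤ 6 * C ^ 3 * p * p' * r ^ 2 := by
  have hid : β u v - (β₀ u₀ v₀ + β₁ u₀ v₀ + β₀ u₁ v₀ + β₀ u₀ v₁)
      = (β - β₀ - β₁) u v + β₁ (u - u₀) v + β₁ u₀ (v - v₀)
        + (β₀ (u - u₀ - u₁) v + β₀ u₁ (v - v₀) + β₀ u₀ (v - v₀ - v₁)) := by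
    simp only [map_sub, sub_apply]; ring
  have k : ∀ (g : F →L[ℝ] F →L[ℝ] ℝ) (a a' : F) (A B D : ℝ), ‖g‖ ≤ A → ‖a‖ ≤ B → ‖a'‖ ≤ D →
      |g a a'| ≤ A * B * D := fun g a a' A B D h1 h2 h3 => by
    rw [← Real.norm_eq_abs]
    exact g.le_of_opNorm₂_le_of_le h1 h2 h3 |>.trans_eq (by ring)
  rw [hid]
  refine ((abs_add_le _ _).trans (add_le_add (abs_add_three _ _ _) (abs_add_three _ _ _))).trans ?_
  linarith [k _ u v _ _ _ e fu fv, k _ (u - u₀) v _ _ _ e₁ gu fv,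
    k _ u₀ (v - v₀) _ _ _ e₁ fu₀ gv, k _ (u - u₀ - u₁) v _ _ _ e₀ gu₂ fv,
    k _ u₁ (v - v₀) _ _ _ e₀ gu₁ gv, k _ u₀ (v - v₀ - v₁) _ _ _ e₀ fu₀ gv₂]

end Vale.Agent.P204.Core.Whitney
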