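import Mathlib
import Vale.Agent.P204.Core.Whitney.Taylor
import Vale.Agent.P204.Core.TestStmt

/-!
# P204, Whitney distance: one chart

`E` is a parametrisation of a piece of a submanifold of a normed space, `Mb` a field of symmetric
bilinear forms on the ambient space whose pullback is Hermitian for `J`. The squared distance is
`q (x, y) = (Mb x + Mb y) D D / 2` with `D = E x - E y`.
-/

set_option maxSynthPendingDepth 3

open Matrix
open scoped ContDiff

namespace Vale.Agent.P204.Core.Whitney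

open Vale.Agent.P204.Torus

variable {F : Type*} [NormedAddCommGroup F] [NormedSpace ℝ F]

/-- A parametrised piece of a submanifold with an ambient metric and a complex structure. -/
structure Chart (F : Type*) [NormedAddCommGroup F] [NormedSpace ℝ F] where
  U : Set Pt
  isOpen : IsOpen U
  E : Pt → F
  Mb : Pt → F →L[ℝ] F →L[ℝ] ℝ
  J : Pt → M4
  L : F →L[ℝ] Pt
  smE : ContDiffOn ℝ ∞ E U
  smM : ContDiffOn ℝ ∞ Mb U
  smJ : ∀ i k, ContDiffOn ℝ ∞ (fun x => J x i k) U
  symm : ∀ x ∈ U, ∀ u v, Mb x u v = Mb x v u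
  left : ∀ x ∈ U, ∀ y ∈ U, L (E x - E y) = x - y
  sq : ∀ x ∈ U, J x * J x = -1
  herm : ∀ x ∈ U, ∀ u v, Mb x (fderiv ℝ E x (J x *ᵥ u)) (fderiv ℝ E x (J x *ᵥ v))
    = Mb x (fderiv ℝ E x u) (fderiv ℝ E x v)

/-- The matrix of a bilinear form. -/
noncomputable def toM (β : Pt →L[ℝ] Pt →L[ℝ] ℝ) : M4 :=
  Matrix.of fun i k => β (Pi.single i 1) (Pi.single k 1)

theorem ev_toM (β : Pt →L[ℝ] Pt →L[ℝ] ℝ) (u v : Pt) : ev (toM β) u v = β u v := by
  conv_rhs => rw [pi_eq_sum_univ' u, pi_eq_sum_univ' v]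
  simp only [map_sum, map_smul, ContinuousLinearMap.sum_apply, _root_.smul_apply, smul_eq_mul, ev, dotProduct,
    Matrix.mulVec, toM, Matrix.of_apply, Finset.mul_sum]
  rw [Finset.sum_comm]
  exact Finset.sum_congr rfl fun k _ => Finset.sum_congr rfl fun i _ => by ring

variable (S : Chart F)

/-- `J` as a function into a normed space. -/
def Chart.JF (x : Pt) : Fin 4 → Fin 4 → ℝ := fun i k => S.J x i k

theorem Chart.smJF : ContDiffOn ℝ ∞ S.JF S.U :=
  contDiffOn_pi.2 fun i => contDiffOn_pi.2 fun k => S.smJ i k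

/-- The differential of `E`. -/
noncomputable def Chart.A (x : Pt) : Pt →L[ℝ] F := fderiv ℝ S.E x

/-- The second differential of `E`. -/
noncomputable def Chart.B (x : Pt) : Pt →L[ℝ] Pt →L[ℝ] F := fderiv ℝ (fderiv ℝ S.E) x

/-- The differential of the metric. -/
noncomputable def Chart.dM (x : Pt) : Pt →L[ℝ] F →L[ℝ] F →L[ℝ] ℝ := fderiv ℝ S.Mb x

/-- The metric in the chart. -/
noncomputable def Chart.g (x : Pt) : M4 := toM ((S.Mb x).bilinearComp (S.A x) (S.A x))

/-- The differential of the metric in the chart. -/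
noncomputable def Chart.gdF (x z : Pt) : Pt →L[ℝ] Pt →L[ℝ] ℝ :=
  (S.dM x z).bilinearComp (S.A x) (S.A x) + (S.Mb x).bilinearComp (S.B x z) (S.A x)
    + (S.Mb x).bilinearComp (S.A x) (S.B x z)

theorem Chart.ev_g (x u v : Pt) : ev (S.g x) u v = S.Mb x (S.A x u) (S.A x v) := by
  rw [Chart.g, ev_toM]; rfl

theorem Chart.gdF_apply (x z u v : Pt) : S.gdF x z u v = S.dM x z (S.A x u) (S.A x v)
    + S.Mb x (S.B x z u) (S.A x v) + S.Mb x (S.A x u) (S.B x z v) := rfl

/-- The differential of the metric, as a linear map to matrices. -/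
noncomputable def Chart.gd (x : Pt) : Pt →ₗ[ℝ] M4 where
  toFun z := toM (S.gdF x z)
  map_add' z z' := by
    ext i k
    simp only [toM, Matrix.of_apply, Matrix.add_apply, Chart.gdF_apply, map_add, _root_.add_apply]
    ring
  map_smul' c z := by
    ext i k
    simp only [toM, Matrix.of_apply, Matrix.smul_apply, Chart.gdF_apply, map_smul, _root_.smul_apply,
      smul_eq_mul, RingHom.id_apply]
    ring

theorem Chart.ev_gd (x z u v : Pt) : ev (S.gd x z) u v = S.gdF x z u v := ev_toM _ u v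

/-- The differential of `J`. -/
noncomputable def Chart.jd (x : Pt) : Pt →ₗ[ℝ] M4 where
  toFun z := Matrix.of (fderiv ℝ S.JF x z)
  map_add' z z' := by ext i k; simp
  map_smul' c z := by ext i k; simp

theorem Chart.jd_apply (x z : Pt) (i k : Fin 4) : S.jd x z i k = fderiv ℝ S.JF x z i k := rfl

variable {S}

theorem Chart.hE {x : Pt} (hx : x ∈ S.U) : HasFDerivAt S.E (S.A x) x :=
  hasFDerivAt_of_smooth S.smE S.isOpen hx

theorem Chart.hA {x : Pt} (hx : x ∈ S.U) : HasFDerivAt S.A (S.B x) x :=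
  hasFDerivAt_of_smooth (smooth_fderiv S.smE S.isOpen) S.isOpen hx

theorem Chart.hM {x : Pt} (hx : x ∈ S.U) : HasFDerivAt S.Mb (S.dM x) x :=
  hasFDerivAt_of_smooth S.smM S.isOpen hx

theorem Chart.hdM {x : Pt} (hx : x ∈ S.U) :
    HasFDerivAt S.dM (fderiv ℝ (fderiv ℝ S.Mb) x) x :=
  hasFDerivAt_of_smooth (smooth_fderiv S.smM S.isOpen) S.isOpen hx

theorem Chart.Bsymm {x : Pt} (hx : x ∈ S.U) (u v : Pt) : S.B x u v = S.B x v u :=
  snd_symm S.smE S.isOpen hx u v

/-- The differential of `x ↦ J x *ᵥ u`. -/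
theorem Chart.hJu {x : Pt} (hx : x ∈ S.U) (u : Pt) :
    HasFDerivAt (fun y => S.J y *ᵥ u)
      (LinearMap.toContinuousLinearMap ((Matrix.mulVecBilin ℝ ℝ).flip u ∘ₗ S.jd x)) x := by
  refine hasFDerivAt_pi'.2 fun i => ?_
  have hk : ∀ k, HasFDerivAt (fun y => S.JF y i k * u k)
      (u k • ((ContinuousLinearMap.proj k : (Fin 4 → ℝ) →L[ℝ] ℝ).comp
        ((ContinuousLinearMap.proj i : (Fin 4 → Fin 4 → ℝ) →L[ℝ] (Fin 4 → ℝ)).comp
          (fderiv ℝ S.JF x)))) x := fun k =>
    ((hasFDerivAt_pi'.1 (hasFDerivAt_pi'.1 (hasFDerivAt_of_smooth S.smJF S.isOpen hx) i) k)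
      ).mul_const (u k)
  refine (HasFDerivAt.fun_sum (u := Finset.univ) fun k _ => hk k).congr_fderiv ?_
  ext z
  simp [Matrix.mulVec, dotProduct, Chart.jd, mul_comm]

theorem Chart.jd_mulVec {x : Pt} (z u : Pt) :
    (LinearMap.toContinuousLinearMap ((Matrix.mulVecBilin ℝ ℝ).flip u ∘ₗ S.jd x)) z
      = S.jd x z *ᵥ u := rfl

theorem Chart.sqd {x : Pt} (hx : x ∈ S.U) (z u : Pt) :
    S.jd x z *ᵥ (S.J x *ᵥ u) = -(S.J x *ᵥ (S.jd x z *ᵥ u)) := by
  have h0 : S.jd x z * S.J x + S.J x * S.jd x z = 0 := by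
    ext i l
    have hk : ∀ k, HasFDerivAt (fun y => S.JF y i k * S.JF y k l) _ x := fun k =>
      (hasFDerivAt_pi'.1 (hasFDerivAt_pi'.1 (hasFDerivAt_of_smooth S.smJF S.isOpen hx) i) k).mul
        (hasFDerivAt_pi'.1 (hasFDerivAt_pi'.1 (hasFDerivAt_of_smooth S.smJF S.isOpen hx) k) l)
    have := congr($(eq_zero_of_const S.isOpen hx
      (HasFDerivAt.fun_sum (u := Finset.univ) fun k _ => hk k) (c := (-1 : M4) i l)
      fun y hy => by rw [← S.sq y hy]; rfl) z)
    simp [Finset.sum_add_distrib] at this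
    simp [Matrix.mul_apply, Chart.jd, Chart.JF, mul_comm] at this ⊢
    linarith
  rw [mulVec_mulVec, mulVec_mulVec, eq_neg_of_add_eq_zero_left h0, neg_mulVec]

theorem Chart.symmd {x : Pt} (hx : x ∈ S.U) (z : Pt) (u v : F) :
    S.dM x z u v = S.dM x z v u := by
  have := congr($(eq_zero_of_const S.isOpen hx
    ((((Chart.hM hx).clm_apply (hasFDerivAt_const u x)).clm_apply (hasFDerivAt_const v x)).sub
      (((Chart.hM hx).clm_apply (hasFDerivAt_const v x)).clm_apply (hasFDerivAt_const u x)))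
    (c := 0) fun y hy => sub_eq_zero.2 (S.symm y hy u v)) z)
  simpa [sub_eq_zero] using this

theorem Chart.hermd {x : Pt} (hx : x ∈ S.U) (z u v : Pt) :
    ev (S.g x) (S.jd x z *ᵥ u) (S.J x *ᵥ v) + ev (S.gd x z) (S.J x *ᵥ u) (S.J x *ᵥ v)
      + ev (S.g x) (S.J x *ᵥ u) (S.jd x z *ᵥ v) = ev (S.gd x z) u v := by
  have hu : ∀ w, HasFDerivAt (fun y => S.A y (S.J y *ᵥ w)) _ x := fun w =>
    (Chart.hA hx).clm_apply (Chart.hJu hx w)
  have hc : ∀ w, HasFDerivAt (fun y => S.A y w) _ x := fun w =>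
    (Chart.hA hx).clm_apply (hasFDerivAt_const w x)
  have := congr($(eq_zero_of_const S.isOpen hx
    ((((Chart.hM hx).clm_apply (hu u)).clm_apply (hu v)).sub
      (((Chart.hM hx).clm_apply (hc u)).clm_apply (hc v)))
    (c := 0) fun y hy => sub_eq_zero.2 (S.herm y hy u v)) z)
  simp only [_root_.sub_apply, _root_.add_apply, ContinuousLinearMap.coe_comp, Function.comp_apply,
    ContinuousLinearMap.flip_apply, Chart.jd_mulVec, map_add, _root_.zero_apply, map_zero] at this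
  simp only [Chart.ev_g, Chart.ev_gd, Chart.gdF_apply]
  linarith

variable (S)

/-- The jet at a point of the chart. -/
noncomputable def Chart.jet {x : Pt} (hx : x ∈ S.U) : Jet where
  j := S.J x
  g := S.g x
  jd := S.jd x
  gd := S.gd x
  sq := S.sq x hx
  symm u v := by rw [Chart.ev_g, Chart.ev_g, S.symm x hx]
  symmd z u v := by
    simp only [Chart.ev_gd, Chart.gdF_apply, Chart.symmd hx z (S.A x u), S.symm x hx (S.B x z u),
      S.symm x hx (S.A x u) (S.B x z v)]
    ring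
  herm u v := by rw [Chart.ev_g, Chart.ev_g]; exact S.herm x hx u v
  sqd := Chart.sqd hx
  hermd := Chart.hermd hx

/-- The squared distance. -/
noncomputable def Chart.q (p : Pt × Pt) : ℝ :=
  ((2 : ℝ)⁻¹ • (S.Mb p.1 + S.Mb p.2)) (S.E p.1 - S.E p.2) (S.E p.1 - S.E p.2)

/-- The data at a pair of points of the chart. -/
noncomputable def Chart.pair (s : ℝ) (x : Pt) {y : Pt} (hy : y ∈ S.U) : PairData where
  K := S.jet hy
  jx := S.J x
  jdx := S.jd x
  q := S.q (x, y)
  s := s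
  a := (fderiv ℝ S.q (x, y)).toLinearMap
  h := ContinuousLinearMap.coeLM ℝ ∘ₗ (fderiv ℝ (fderiv ℝ S.q) (x, y)).toLinearMap

end Vale.Agent.P204.Core.Whitney
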