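import Mathlib
import Vale.Agent.P204.Core.Whitney.Chart

/-!
# P204, Whitney distance: uniform bounds on a compact convex piece of a chart
-/

set_option maxSynthPendingDepth 3

open Matrix

namespace Vale.Agent.P204.Core.Whitney

variable {F : Type*} [NormedAddCommGroup F] [NormedSpace ℝ F] (S : Chart F)

/-- All bounds at a pair of points with distance `r = ‖E x - E y‖`. -/
structure Chart.Bd (x y : Pt) (C r : ℝ) : Prop where
  one : 1 ≤ C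
  rnn : 0 ≤ r
  rdef : ‖S.E x - S.E y‖ = r
  rle : r ≤ C
  wle : ‖x - y‖ ≤ C * r
  nA : ‖S.A y‖ ≤ C
  nAx : ‖S.A x‖ ≤ C
  nB : ‖S.B y‖ ≤ C
  nBx : ‖S.B x‖ ≤ C
  nM : ‖S.Mb y‖ ≤ C
  nMx : ‖S.Mb x‖ ≤ C
  ndM : ‖S.dM y‖ ≤ C
  ndMx : ‖S.dM x‖ ≤ C
  nddM : ‖fderiv ℝ (fderiv ℝ S.Mb) y‖ ≤ C
  nddMx : ‖fderiv ℝ (fderiv ℝ S.Mb) x‖ ≤ C
  eE : ‖S.E x - S.E y - S.A y (x - y) - (2 : ℝ)⁻¹ • S.B y (x - y) (x - y)‖ ≤ C * r ^ 3
  dA : ‖S.A x - S.A y‖ ≤ C * r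
  eA : ‖S.A x - S.A y - S.B y (x - y)‖ ≤ C * r ^ 2
  dB : ‖S.B x - S.B y‖ ≤ C * r
  dMb : ‖S.Mb x - S.Mb y‖ ≤ C * r
  eM : ‖S.Mb x - S.Mb y - S.dM y (x - y)‖ ≤ C * r ^ 2
  ddM : ‖S.dM x - S.dM y‖ ≤ C * r
  nJ : ‖S.JF y‖ ≤ C
  ndJ : ‖fderiv ℝ S.JF y‖ ≤ C
  eJ : ‖S.JF x - S.JF y - fderiv ℝ S.JF y (x - y)‖ ≤ C * r ^ 2
  ddJ : ‖fderiv ℝ S.JF x - fderiv ℝ S.JF y‖ ≤ C * r

theorem Chart.exists_bd {K : Set Pt} (hK : IsCompact K) (hKc : Convex ℝ K) (hKU : K ⊆ S.U) :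
    ∃ C, 1 ≤ C ∧ ‖S.L‖ ≤ C ∧ ∀ x ∈ K, ∀ y ∈ K, S.Bd x y C ‖S.E x - S.E y‖ := by
  have hA := smooth_fderiv S.smE S.isOpen
  have hdM := smooth_fderiv S.smM S.isOpen
  obtain ⟨a, ha, a0, a1, -, -⟩ := taylor2 S.smE S.isOpen hK hKc hKU
  obtain ⟨a', ha', a3⟩ := taylor3 S.smE S.isOpen hK hKc hKU
  obtain ⟨b, hb, -, b1, b2, b3⟩ := taylor2 hA S.isOpen hK hKc hKU
  obtain ⟨b', hb', -, -, b4, -⟩ := taylor2 (smooth_fderiv hA S.isOpen) S.isOpen hK hKc hKU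
  obtain ⟨m, hm, m0, m1, m2, m3⟩ := taylor2 S.smM S.isOpen hK hKc hKU
  obtain ⟨n, hn, -, n1, n2, -⟩ := taylor2 hdM S.isOpen hK hKc hKU
  obtain ⟨j, hj, j0, j1, -, j3⟩ := taylor2 S.smJF S.isOpen hK hKc hKU
  obtain ⟨k, hk, -, -, k2, -⟩ :=
    taylor2 (smooth_fderiv S.smJF S.isOpen) S.isOpen hK hKc hKU
  set T := 1 + 2 * a + a' + b + b' + m + n + j + k + ‖S.L‖ with hT
  have hT1 : 1 ≤ T := by linarith [norm_nonneg S.L]
  have hTp : ∀ i : ℕ, i ≤ 4 → T ^ i ≤ T ^ 4 := fun i hi => pow_le_pow_right₀ hT1 hi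
  have hT0 : 0 ≤ T := zero_le_one.trans hT1
  refine ⟨T ^ 4, one_le_pow₀ hT1, ?_, fun x hx y hy => ?_⟩
  · exact le_trans (by linarith : ‖S.L‖ ≤ T) ((pow_one T).ge.trans (hTp 1 (by norm_num)))
  have hr : 0 ≤ ‖S.E x - S.E y‖ := norm_nonneg _
  have hw : ‖x - y‖ ≤ T * ‖S.E x - S.E y‖ := by
    rw [← S.left x (hKU hx) y (hKU hy)]
    exact (S.L.le_opNorm _).trans (mul_le_mul_of_nonneg_right (by linarith) hr)
  have up : ∀ {t u : ℝ}, t ≤ T → u ≤ t → u ≤ T ^ 4 := fun ht hu =>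
    (hu.trans ht).trans ((pow_one T).ge.trans (hTp 1 (by norm_num)))
  have sc : ∀ {t u : ℝ} (i : ℕ), 0 ≤ t → t ≤ T → i ≤ 3 → u ≤ t * ‖x - y‖ ^ i →
      u ≤ T ^ 4 * ‖S.E x - S.E y‖ ^ i := fun {t u} i ht htT hi hu => by
    refine hu.trans ((mul_le_mul htT (pow_le_pow_left₀ (norm_nonneg _) hw i)
      (pow_nonneg (norm_nonneg _) i) hT0).trans ?_)
    rw [mul_pow, ← mul_assoc, ← pow_succ']
    exact mul_le_mul_of_nonneg_right (hTp _ (by omega)) (pow_nonneg hr i)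
  have hL := norm_nonneg S.L
  exact
    { one := one_le_pow₀ hT1
      rnn := hr
      rdef := rfl
      rle := up (by linarith : 2 * a ≤ T)
        ((norm_sub_le _ _).trans (by linarith [a0 x hx, a0 y hy]))
      wle := hw.trans (mul_le_mul_of_nonneg_right ((pow_one T).ge.trans (hTp 1 (by norm_num))) hr)
      nA := up (by linarith) (a1 y hy)
      nAx := up (by linarith) (a1 x hx)
      nB := up (by linarith) (b1 y hy)
      nBx := up (by linarith) (b1 x hx)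
      nM := up (by linarith) (m0 y hy)
      nMx := up (by linarith) (m0 x hx)
      ndM := up (by linarith) (m1 y hy)
      ndMx := up (by linarith) (m1 x hx)
      nddM := up (by linarith) (n1 y hy)
      nddMx := up (by linarith) (n1 x hx)
      eE := sc 3 ha' (by linarith) le_rfl (a3 x hx y hy)
      dA :=
        (sc 1 hb (by linarith) (by norm_num) ((b2 x hx y hy).trans_eq (by rw [pow_one]))).trans_eq (by rw [pow_one])
      eA := sc 2 hb (by linarith) (by norm_num) (b3 x hx y hy)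
      dB :=
        (sc 1 hb' (by linarith) (by norm_num) ((b4 x hx y hy).trans_eq (by rw [pow_one]))).trans_eq (by rw [pow_one])
      dMb :=
        (sc 1 hm (by linarith) (by norm_num) ((m2 x hx y hy).trans_eq (by rw [pow_one]))).trans_eq (by rw [pow_one])
      eM := sc 2 hm (by linarith) (by norm_num) (m3 x hx y hy)
      ddM :=
        (sc 1 hn (by linarith) (by norm_num) ((n2 x hx y hy).trans_eq (by rw [pow_one]))).trans_eq (by rw [pow_one])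
      nJ := up (by linarith) (j0 y hy)
      ndJ := up (by linarith) (j1 y hy)
      eJ := sc 2 hj (by linarith) (by norm_num) (j3 x hx y hy)
      ddJ :=
        (sc 1 hk (by linarith) (by norm_num) ((k2 x hx y hy).trans_eq (by rw [pow_one]))).trans_eq (by rw [pow_one]) }

theorem norm_mulVec_le {m : M4} {b : ℝ} (hm : ‖(fun i k => m i k : Fin 4 → Fin 4 → ℝ)‖ ≤ b)
    (v : Pt) : ‖m *ᵥ v‖ ≤ 4 * b * ‖v‖ := by
  have hb := (norm_nonneg _).trans hm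
  refine (pi_norm_le_iff_of_nonneg (by positivity)).2 fun i => ?_
  rw [Matrix.mulVec, dotProduct]
  calc ‖∑ k, m i k * v k‖ ≤ ∑ k, ‖m i k * v k‖ := norm_sum_le _ _
    _ ≤ ∑ _k : Fin 4, b * ‖v‖ := Finset.sum_le_sum fun k _ => by
        rw [norm_mul]
        exact mul_le_mul (((norm_le_pi_norm (fun k => m i k) k).trans
          (norm_le_pi_norm (fun i k => m i k : Fin 4 → Fin 4 → ℝ) i)).trans hm)
          (norm_le_pi_norm v k) (norm_nonneg _) hb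
    _ = 4 * b * ‖v‖ := by simp; ring

end Vale.Agent.P204.Core.Whitney
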