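import Mathlib
import Vale.Agent.P204.Core.Whitney.Chart

/-!
# P204, Whitney distance: first and second differential of the squared distance
-/

set_option maxSynthPendingDepth 3

open scoped ContDiff Topology

namespace Vale.Agent.P204.Core.Whitney

variable {F : Type*} [NormedAddCommGroup F] [NormedSpace ℝ F] (S : Chart F)

/-- The secant. -/
def Chart.D (p : Pt × Pt) : F := S.E p.1 - S.E p.2

/-- The averaged metric. -/
noncomputable def Chart.Mav (p : Pt × Pt) : F →L[ℝ] F →L[ℝ] ℝ :=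
  (2 : ℝ)⁻¹ • (S.Mb p.1 + S.Mb p.2)

/-- The differential of the averaged metric. -/
noncomputable def Chart.dMav (p V : Pt × Pt) : F →L[ℝ] F →L[ℝ] ℝ :=
  (2 : ℝ)⁻¹ • (S.dM p.1 V.1 + S.dM p.2 V.2)

/-- The differential of the secant. -/
noncomputable def Chart.dD (p V : Pt × Pt) : F := S.A p.1 V.1 - S.A p.2 V.2

/-- The second differential of the secant. -/
noncomputable def Chart.ddD (p U V : Pt × Pt) : F := S.B p.1 U.1 V.1 - S.B p.2 U.2 V.2

/-- The second differential of the averaged metric. -/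
noncomputable def Chart.ddMav (p U V : Pt × Pt) : F →L[ℝ] F →L[ℝ] ℝ :=
  (2 : ℝ)⁻¹ • (fderiv ℝ (fderiv ℝ S.Mb) p.1 U.1 V.1 + fderiv ℝ (fderiv ℝ S.Mb) p.2 U.2 V.2)

theorem Chart.q_eq (p : Pt × Pt) : S.q p = S.Mav p (S.D p) (S.D p) := rfl

theorem Chart.Mav_symm {p : Pt × Pt} (hp : p.1 ∈ S.U ∧ p.2 ∈ S.U) (u v : F) :
    S.Mav p u v = S.Mav p v u := by
  simp only [Chart.Mav, smul_apply, add_apply, S.symm _ hp.1 u v, S.symm _ hp.2 u v]

theorem Chart.dMav_symm {p : Pt × Pt} (hp : p.1 ∈ S.U ∧ p.2 ∈ S.U) (V : Pt × Pt) (u v : F) :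
    S.dMav p V u v = S.dMav p V v u := by
  simp only [Chart.dMav, smul_apply, add_apply, Chart.symmd hp.1 V.1 u v,
    Chart.symmd hp.2 V.2 u v]

theorem Chart.q_smooth : ContDiffOn ℝ ∞ S.q (S.U ×ˢ S.U) := by
  have h1 : Set.MapsTo Prod.fst (S.U ×ˢ S.U) S.U := fun p hp => hp.1
  have h2 : Set.MapsTo Prod.snd (S.U ×ˢ S.U) S.U := fun p hp => hp.2
  have hD := (S.smE.comp contDiffOn_fst h1).sub (S.smE.comp contDiffOn_snd h2)
  exact ((((S.smM.comp contDiffOn_fst h1).add (S.smM.comp contDiffOn_snd h2)).const_smul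
    (2 : ℝ)⁻¹).clm_apply hD).clm_apply hD

variable {S} {p : Pt × Pt}

theorem Chart.hD (hp : p.1 ∈ S.U ∧ p.2 ∈ S.U) :
    HasFDerivAt S.D ((S.A p.1).comp (ContinuousLinearMap.fst ℝ Pt Pt)
      - (S.A p.2).comp (ContinuousLinearMap.snd ℝ Pt Pt)) p :=
  ((Chart.hE hp.1).comp p hasFDerivAt_fst).sub ((Chart.hE hp.2).comp p hasFDerivAt_snd)

theorem Chart.hMav (hp : p.1 ∈ S.U ∧ p.2 ∈ S.U) :
    HasFDerivAt S.Mav ((2 : ℝ)⁻¹ • ((S.dM p.1).comp (ContinuousLinearMap.fst ℝ Pt Pt)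
      + (S.dM p.2).comp (ContinuousLinearMap.snd ℝ Pt Pt))) p :=
  (((Chart.hM hp.1).comp p hasFDerivAt_fst).add
    ((Chart.hM hp.2).comp p hasFDerivAt_snd)).const_smul (2 : ℝ)⁻¹

/-- The differential of the squared distance. -/
theorem Chart.fderiv_q (hp : p.1 ∈ S.U ∧ p.2 ∈ S.U) (V : Pt × Pt) :
    fderiv ℝ S.q p V = S.dMav p V (S.D p) (S.D p) + 2 * S.Mav p (S.D p) (S.dD p V) := by
  have h : HasFDerivAt S.q _ p := (((Chart.hMav hp).clm_apply (Chart.hD hp)).clm_apply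
    (Chart.hD hp))
  rw [h.fderiv]
  simp only [add_apply, sub_apply, smul_apply, ContinuousLinearMap.coe_comp, Function.comp_apply,
    ContinuousLinearMap.flip_apply, ContinuousLinearMap.coe_fst', ContinuousLinearMap.coe_snd']
  simp only [Chart.D, Chart.dMav, Chart.dD, smul_apply, add_apply, smul_eq_mul]
  rw [S.Mav_symm hp (S.A p.1 V.1 - S.A p.2 V.2) (S.E p.1 - S.E p.2)]
  ring

/-- The second differential of the squared distance. -/
theorem Chart.fderiv2_q (hp : p.1 ∈ S.U ∧ p.2 ∈ S.U) (U V : Pt × Pt) :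
    fderiv ℝ (fderiv ℝ S.q) p U V = S.ddMav p U V (S.D p) (S.D p)
      + 2 * S.dMav p V (S.D p) (S.dD p U) + 2 * S.dMav p U (S.D p) (S.dD p V)
      + 2 * S.Mav p (S.dD p U) (S.dD p V) + 2 * S.Mav p (S.D p) (S.ddD p U V) := by
  have hopen := S.isOpen.prod S.isOpen
  have hq : HasFDerivAt (fderiv ℝ S.q) (fderiv ℝ (fderiv ℝ S.q) p) p :=
    hasFDerivAt_of_smooth (smooth_fderiv S.q_smooth hopen) hopen hp
  have h1 := hq.clm_apply (hasFDerivAt_const V p)
  have hdM : HasFDerivAt (fun z => S.dMav z V) _ p :=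
    ((((Chart.hdM hp.1).comp p hasFDerivAt_fst).clm_apply (hasFDerivAt_const V.1 p)).add
      (((Chart.hdM hp.2).comp p hasFDerivAt_snd).clm_apply (hasFDerivAt_const V.2 p))).const_smul
      (2 : ℝ)⁻¹
  have hdD : HasFDerivAt (fun z => S.dD z V) _ p :=
    (((Chart.hA hp.1).comp p hasFDerivAt_fst).clm_apply (hasFDerivAt_const V.1 p)).sub
      (((Chart.hA hp.2).comp p hasFDerivAt_snd).clm_apply (hasFDerivAt_const V.2 p))
  have h2 : HasFDerivAt
      (fun z => S.dMav z V (S.D z) (S.D z) + 2 * S.Mav z (S.D z) (S.dD z V)) _ p :=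
    ((hdM.clm_apply (Chart.hD hp)).clm_apply (Chart.hD hp)).add
      ((((Chart.hMav hp).clm_apply (Chart.hD hp)).clm_apply hdD).const_mul 2)
  have h3 := (h2.congr_of_eventuallyEq
    (Filter.eventuallyEq_of_mem (hopen.mem_nhds hp) fun z hz => Chart.fderiv_q hz V)).unique h1
  have h4 := congr($h3 U)
  simp only [add_apply, sub_apply, smul_apply, ContinuousLinearMap.coe_comp, Function.comp_apply,
    ContinuousLinearMap.flip_apply, ContinuousLinearMap.coe_fst', ContinuousLinearMap.coe_snd',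
    map_zero, _root_.zero_apply, zero_add, smul_eq_mul] at h4
  rw [← h4]
  simp only [Chart.D, Chart.dD, Chart.ddD]
  rw [S.dMav_symm hp V (S.A p.1 U.1 - S.A p.2 U.2) (S.E p.1 - S.E p.2)]
  simp only [Chart.dMav, Chart.ddMav, smul_apply, add_apply, smul_eq_mul]
  ring

end Vale.Agent.P204.Core.Whitney
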