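import Mathlib
import Vale.Agent.P204.Core.Whitney.Chart

/-!
# P204, Whitney distance: the main terms of the expansion are those of the chart jet
-/

set_option maxSynthPendingDepth 3

namespace Vale.Agent.P204.Core.Whitney

open Vale.Agent.P204.Torus

variable {F : Type*} [NormedAddCommGroup F] [NormedSpace ℝ F] {S : Chart F} {y : Pt}

theorem Chart.ident_a (hy : y ∈ S.U) (w : Pt) (V : Pt × Pt) :
    S.dM y ((2 : ℝ)⁻¹ • (V.1 + V.2)) (S.A y w) (S.A y w)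
      + 2 * (S.Mb y (S.A y w) (S.A y (V.1 - V.2))
        + ((2 : ℝ)⁻¹ • S.dM y w) (S.A y w) (S.A y (V.1 - V.2))
        + S.Mb y ((2 : ℝ)⁻¹ • S.B y w w) (S.A y (V.1 - V.2))
        + S.Mb y (S.A y w) (S.B y w V.1))
      = d11 (S.jet hy) w (conv V) + d12 (S.jet hy) w (conv V) := by
  simp only [d11, d12, conv, Chart.jet, Chart.ev_g, Chart.ev_gd, Chart.gdF_apply]
  rw [Chart.Bsymm hy ((2 : ℝ)⁻¹ • (V.1 + V.2)) w,
    S.symm y hy (S.B y w ((2 : ℝ)⁻¹ • (V.1 + V.2))) (S.A y w)]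
  simp only [map_smul, map_add, map_sub, smul_apply, add_apply, sub_apply, smul_eq_mul]
  ring

theorem Chart.ident_h (hy : y ∈ S.U) (w : Pt) (U V : Pt × Pt) :
    2 * S.dM y ((2 : ℝ)⁻¹ • (V.1 + V.2)) (S.A y w) (S.A y (U.1 - U.2))
      + 2 * S.dM y ((2 : ℝ)⁻¹ • (U.1 + U.2)) (S.A y w) (S.A y (V.1 - V.2))
      + 2 * (S.Mb y (S.A y (U.1 - U.2)) (S.A y (V.1 - V.2))
        + ((2 : ℝ)⁻¹ • S.dM y w) (S.A y (U.1 - U.2)) (S.A y (V.1 - V.2))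
        + S.Mb y (S.B y w U.1) (S.A y (V.1 - V.2))
        + S.Mb y (S.A y (U.1 - U.2)) (S.B y w V.1))
      + 2 * S.Mb y (S.A y w) (S.B y U.1 V.1 - S.B y U.2 V.2)
      = d20 (S.jet hy) (conv U) (conv V) + d21 (S.jet hy) w (conv U) (conv V) := by
  simp only [d20, d21, conv, Chart.jet, Chart.ev_g, Chart.ev_gd, Chart.gdF_apply]
  rw [Chart.Bsymm hy ((2 : ℝ)⁻¹ • (U.1 + U.2)) w, Chart.Bsymm hy ((2 : ℝ)⁻¹ • (V.1 + V.2)) w,
    Chart.Bsymm hy ((2 : ℝ)⁻¹ • (V.1 + V.2)) (U.1 - U.2),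
    S.symm y hy (S.B y w ((2 : ℝ)⁻¹ • (V.1 + V.2))) (S.A y (U.1 - U.2))]
  simp only [map_smul, map_add, map_sub, smul_apply, add_apply, sub_apply, smul_eq_mul]
  ring

end Vale.Agent.P204.Core.Whitney
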