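import Mathlib
import Vale.Agent.P204.Core.Whitney.Deriv
import Vale.Agent.P204.Core.Whitney.Ident
import Vale.Agent.P204.Core.Whitney.Bounds

/-!
# P204, Whitney distance: the squared distance has the expansion of `PairData.Expansion`
-/

set_option maxSynthPendingDepth 3

open Matrix

namespace Vale.Agent.P204.Core.Whitney

open Vale.Agent.P204.Torus

variable {F : Type*} [NormedAddCommGroup F] [NormedSpace ℝ F]

/-- Displacement and midpoint of a vector are controlled by it. -/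
theorem norm_parts (V : Pt × Pt) :
    ‖V.1‖ ≤ ‖V‖ ∧ ‖V.2‖ ≤ ‖V‖ ∧ ‖V.1 - V.2‖ ≤ 2 * ‖V‖ ∧
      ‖(2 : ℝ)⁻¹ • (V.1 + V.2)‖ ≤ ‖V‖ := by
  have h1 := norm_fst_le V
  have h2 := norm_snd_le V
  refine ⟨h1, h2, (norm_sub_le _ _).trans (by linarith), ?_⟩
  rw [norm_smul, Real.norm_eq_abs, abs_of_pos (by norm_num : (0 : ℝ) < 2⁻¹)]
  linarith [norm_add_le V.1 V.2]

theorem half_norm {E : Type*} [SeminormedAddCommGroup E] [NormedSpace ℝ E] (v : E) :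
    ‖(2 : ℝ)⁻¹ • v‖ = ‖v‖ / 2 := by
  rw [norm_smul, Real.norm_eq_abs, abs_of_pos (by norm_num : (0 : ℝ) < 2⁻¹)]
  ring

variable {S : Chart F} {x y : Pt} {C r : ℝ}

section

variable (b : S.Bd x y C r)
include b

theorem Chart.Bd.cC : C ≤ C ^ 3 := le_self_pow₀ b.one (by norm_num)

theorem Chart.Bd.c2C : C ^ 2 ≤ C ^ 3 := pow_le_pow_right₀ b.one (by norm_num)

theorem Chart.Bd.nonneg : 0 ≤ C := zero_le_one.trans b.one

/-- Bounds on the secant and its main parts. -/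
theorem Chart.Bd.secant :
    ‖S.D (x, y)‖ ≤ 2 * C ^ 3 * r ∧ ‖S.A y (x - y)‖ ≤ 2 * C ^ 3 * r ∧
      ‖(2 : ℝ)⁻¹ • S.B y (x - y) (x - y)‖ ≤ 2 * C ^ 3 * r * r ∧
      ‖S.D (x, y) - S.A y (x - y)‖ ≤ 2 * C ^ 3 * r * r ∧
      ‖S.D (x, y) - S.A y (x - y) - (2 : ℝ)⁻¹ • S.B y (x - y) (x - y)‖
        ≤ 2 * C ^ 3 * r * r ^ 2 := by
  have hr := b.rnn
  have h1 := b.one
  have hC := b.nonneg
  have hrr : 0 ≤ r * r := mul_nonneg hr hr
  have hAw : ‖S.A y (x - y)‖ ≤ C * (C * r) :=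
    (S.A y).le_of_opNorm_le_of_le b.nA b.wle
  have hB : ‖(2 : ℝ)⁻¹ • S.B y (x - y) (x - y)‖ ≤ C ^ 3 * (r * r) := by
    rw [half_norm]
    have : ‖S.B y (x - y) (x - y)‖ ≤ C * (C * r) * (C * r) :=
      (S.B y).le_of_opNorm₂_le_of_le b.nB b.wle b.wle
    nlinarith [norm_nonneg (S.B y (x - y) (x - y))]
  have he := b.eE
  refine ⟨?_, hAw.trans ?_, hB.trans ?_, ?_, he.trans ?_⟩
  · rw [show ‖S.D (x, y)‖ = r from b.rdef]
    nlinarith [one_le_pow₀ h1 (n := 3)]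
  · nlinarith [mul_le_mul_of_nonneg_right b.c2C hr]
  · nlinarith [pow_nonneg hC 3]
  · have : ‖S.D (x, y) - S.A y (x - y)‖ ≤ C * r ^ 3 + C ^ 3 * (r * r) := by
      refine (le_trans ?_ (norm_add_le _ _)).trans (add_le_add he hB)
      rw [sub_add_cancel]
      exact le_rfl
    have : C * r ^ 3 ≤ C ^ 3 * (r * r) := by
      nlinarith [mul_le_mul_of_nonneg_left b.rle (mul_nonneg hC hrr),
        mul_le_mul_of_nonneg_right b.c2C hrr]
    linarith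
  · nlinarith [mul_le_mul_of_nonneg_right b.cC (pow_nonneg hr 3),
      mul_nonneg (pow_nonneg hC 3) (pow_nonneg hr 3)]

/-- Bounds on the differential of the secant and its main parts. -/
theorem Chart.Bd.dsecant (V : Pt × Pt) :
    ‖S.dD (x, y) V‖ ≤ 2 * C ^ 3 * ‖V‖ ∧ ‖S.A y (V.1 - V.2)‖ ≤ 2 * C ^ 3 * ‖V‖ ∧
      ‖S.B y (x - y) V.1‖ ≤ 2 * C ^ 3 * ‖V‖ * r ∧
      ‖S.dD (x, y) V - S.A y (V.1 - V.2)‖ ≤ 2 * C ^ 3 * ‖V‖ * r ∧
      ‖S.dD (x, y) V - S.A y (V.1 - V.2) - S.B y (x - y) V.1‖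
        ≤ 2 * C ^ 3 * ‖V‖ * r ^ 2 := by
  obtain ⟨h1, h2, hW, -⟩ := norm_parts V
  have hr := b.rnn
  have hC := b.nonneg
  have hV := norm_nonneg V
  have e1 : S.dD (x, y) V - S.A y (V.1 - V.2) = (S.A x - S.A y) V.1 := by
    simp [Chart.dD]
  have e2 : S.dD (x, y) V - S.A y (V.1 - V.2) - S.B y (x - y) V.1
      = (S.A x - S.A y - S.B y (x - y)) V.1 := by
    rw [e1]; simp
  have k1 : ‖S.dD (x, y) V‖ ≤ C * ‖V‖ + C * ‖V‖ :=
    (norm_sub_le _ _).trans (add_le_add ((S.A x).le_of_opNorm_le_of_le b.nAx h1)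
      ((S.A y).le_of_opNorm_le_of_le b.nA h2))
  have k2 : ‖S.A y (V.1 - V.2)‖ ≤ C * (2 * ‖V‖) := (S.A y).le_of_opNorm_le_of_le b.nA hW
  have k3 : ‖S.B y (x - y) V.1‖ ≤ C * (C * r) * ‖V‖ :=
    (S.B y).le_of_opNorm₂_le_of_le b.nB b.wle h1
  have k4 : ‖(S.A x - S.A y) V.1‖ ≤ C * r * ‖V‖ :=
    ContinuousLinearMap.le_of_opNorm_le_of_le _ b.dA h1
  have k5 : ‖(S.A x - S.A y - S.B y (x - y)) V.1‖ ≤ C * r ^ 2 * ‖V‖ :=
    ContinuousLinearMap.le_of_opNorm_le_of_le _ b.eA h1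
  rw [e2, e1]
  refine ⟨k1.trans ?_, k2.trans ?_, k3.trans ?_, k4.trans ?_, k5.trans ?_⟩
  · nlinarith [mul_le_mul_of_nonneg_right b.cC hV]
  · nlinarith [mul_le_mul_of_nonneg_right b.cC hV]
  · nlinarith [mul_le_mul_of_nonneg_right b.c2C (mul_nonneg hV hr), pow_nonneg hC 3,
      mul_nonneg (pow_nonneg hC 3) (mul_nonneg hV hr)]
  · nlinarith [mul_le_mul_of_nonneg_right b.cC (mul_nonneg hV hr),
      mul_nonneg (pow_nonneg hC 3) (mul_nonneg hV hr)]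
  · nlinarith [mul_le_mul_of_nonneg_right b.cC (mul_nonneg hV (pow_nonneg hr 2)),
      mul_nonneg (pow_nonneg hC 3) (mul_nonneg hV (pow_nonneg hr 2))]

/-- Bounds on the averaged metric. -/
theorem Chart.Bd.metric :
    ‖S.Mav (x, y)‖ ≤ C ∧ ‖S.Mav (x, y) - S.Mb y‖ ≤ 2 * C ^ 3 * r ∧
      ‖(2 : ℝ)⁻¹ • S.dM y (x - y)‖ ≤ 2 * C ^ 3 * r ∧
      ‖S.Mav (x, y) - S.Mb y - (2 : ℝ)⁻¹ • S.dM y (x - y)‖ ≤ 2 * C ^ 3 * r ^ 2 := by
  have hr := b.rnn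
  have hC := b.nonneg
  have e1 : S.Mav (x, y) - S.Mb y = (2 : ℝ)⁻¹ • (S.Mb x - S.Mb y) := by
    simp only [Chart.Mav]; module
  have e2 : S.Mav (x, y) - S.Mb y - (2 : ℝ)⁻¹ • S.dM y (x - y)
      = (2 : ℝ)⁻¹ • (S.Mb x - S.Mb y - S.dM y (x - y)) := by
    simp only [Chart.Mav]; module
  have k3 : ‖S.dM y (x - y)‖ ≤ C * (C * r) := (S.dM y).le_of_opNorm_le_of_le b.ndM b.wle
  refine ⟨?_, ?_, ?_, ?_⟩
  · rw [Chart.Mav, half_norm]
    linarith [norm_add_le (S.Mb x) (S.Mb y), b.nM, b.nMx]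
  · rw [e1, half_norm]
    nlinarith [b.dMb, mul_le_mul_of_nonneg_right b.cC hr]
  · rw [half_norm]
    nlinarith [mul_le_mul_of_nonneg_right b.c2C hr, mul_nonneg (pow_nonneg hC 3) hr]
  · rw [e2, half_norm]
    nlinarith [b.eM, mul_le_mul_of_nonneg_right b.cC (pow_nonneg hr 2)]

/-- Bounds on the differential of the averaged metric. -/
theorem Chart.Bd.dmetric (V : Pt × Pt) :
    ‖S.dMav (x, y) V - S.dM y ((2 : ℝ)⁻¹ • (V.1 + V.2))‖ ≤ 2 * C ^ 3 * ‖V‖ * r ∧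
      ‖S.dM y ((2 : ℝ)⁻¹ • (V.1 + V.2))‖ ≤ 2 * C ^ 3 * ‖V‖ := by
  obtain ⟨h1, -, -, hZ⟩ := norm_parts V
  have e : S.dMav (x, y) V - S.dM y ((2 : ℝ)⁻¹ • (V.1 + V.2))
      = (2 : ℝ)⁻¹ • (S.dM x - S.dM y) V.1 := by
    simp only [Chart.dMav, map_smul, map_add, _root_.sub_apply]; module
  constructor
  · rw [e, half_norm]
    have : ‖(S.dM x - S.dM y) V.1‖ ≤ C * r * ‖V‖ :=
      ContinuousLinearMap.le_of_opNorm_le_of_le _ b.ddM h1
    nlinarith [mul_le_mul_of_nonneg_right b.cC (mul_nonneg (norm_nonneg V) b.rnn),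
      norm_nonneg ((S.dM x - S.dM y) V.1)]
  · refine ((S.dM y).le_of_opNorm_le_of_le b.ndM hZ).trans ?_
    nlinarith [mul_le_mul_of_nonneg_right b.cC (norm_nonneg V), norm_nonneg V, pow_nonneg b.nonneg 3]

theorem Chart.Bd.qw_le :
    |S.q (x, y) - S.Mb y (S.A y (x - y)) (S.A y (x - y))| ≤ 24 * C ^ 9 * r ^ 3 := by
  obtain ⟨f1, f2, -, f4, -⟩ := b.secant
  obtain ⟨-, m2, -, -⟩ := b.metric
  have := first_order (β := S.Mav (x, y)) (β₀ := S.Mb y) (u := S.D (x, y))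
    (u₀ := S.A y (x - y)) (v := S.D (x, y)) (v₀ := S.A y (x - y)) (C := 2 * C ^ 3) (b := 1)
    (p := r) (p' := r) (r := r) (by linarith) (by linarith [b.nM, b.cC, pow_nonneg b.nonneg 3])
    f1 f2 f4 f1 f4
  rw [S.q_eq]
  linarith

theorem Chart.Bd.a_le (hx : x ∈ S.U) (hy : y ∈ S.U) (V : Pt × Pt) :
    |fderiv ℝ S.q (x, y) V
      - (d11 (S.jet hy) (x - y) (conv V) + d12 (S.jet hy) (x - y) (conv V))|
      ≤ 120 * C ^ 9 * r ^ 3 * ‖V‖ := by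
  obtain ⟨f1, f2, f3, f4, f5⟩ := b.secant
  obtain ⟨v1, -, -, v4, v5⟩ := b.dsecant V
  obtain ⟨-, -, m3, m4⟩ := b.metric
  obtain ⟨n1, n2⟩ := b.dmetric V
  rw [Chart.fderiv_q (p := (x, y)) ⟨hx, hy⟩, ← Chart.ident_a hy]
  have E1 := first_order n1 n2 f1 f2 f4 f1 f4
  have E2 := second_order m4 (b.nM.trans (by linarith [b.cC, pow_nonneg b.nonneg 3])) m3 f1 f2
    f4 f3 f5 v1 v4 v5
  refine le_trans ?_ (le_of_eq (show 3 * (2 * C ^ 3) ^ 3 * ‖V‖ * r * r * r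
    + 2 * (6 * (2 * C ^ 3) ^ 3 * r * ‖V‖ * r ^ 2) = 120 * C ^ 9 * r ^ 3 * ‖V‖ by ring))
  rw [abs_le] at E1 E2 ⊢
  constructor <;> linarith [E1.1, E1.2, E2.1, E2.2]

theorem Chart.Bd.h_dM (U V : Pt × Pt) :
    |S.dMav (x, y) V (S.D (x, y)) (S.dD (x, y) U)
      - S.dM y ((2 : ℝ)⁻¹ • (V.1 + V.2)) (S.A y (x - y)) (S.A y (U.1 - U.2))|
      ≤ 24 * C ^ 9 * r ^ 2 * ‖U‖ * ‖V‖ := by
  obtain ⟨f1, f2, -, f4, -⟩ := b.secant
  obtain ⟨u1, -, -, u4, -⟩ := b.dsecant U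
  obtain ⟨nV, nV'⟩ := b.dmetric V
  exact (first_order nV nV' f1 f2 f4 u1 u4).trans_eq (by ring)

theorem Chart.Bd.h_M (U V : Pt × Pt) :
    |S.Mav (x, y) (S.dD (x, y) U) (S.dD (x, y) V)
      - (S.Mb y (S.A y (U.1 - U.2)) (S.A y (V.1 - V.2))
        + ((2 : ℝ)⁻¹ • S.dM y (x - y)) (S.A y (U.1 - U.2)) (S.A y (V.1 - V.2))
        + S.Mb y (S.B y (x - y) U.1) (S.A y (V.1 - V.2))
        + S.Mb y (S.A y (U.1 - U.2)) (S.B y (x - y) V.1))|
      ≤ 48 * C ^ 9 * r ^ 2 * ‖U‖ * ‖V‖ := by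
  obtain ⟨u1, u2, u3, u4, u5⟩ := b.dsecant U
  obtain ⟨v1, -, -, v4, v5⟩ := b.dsecant V
  obtain ⟨-, -, m3, m4⟩ := b.metric
  have hM : ‖S.Mb y‖ ≤ 2 * C ^ 3 := b.nM.trans (by linarith [b.cC, pow_nonneg b.nonneg 3])
  exact (second_order m4 hM m3 u1 u2 u4 u3 u5 v1 v4 v5).trans_eq (by ring)

theorem Chart.Bd.h_dd (U V : Pt × Pt) :
    |S.Mav (x, y) (S.D (x, y)) (S.ddD (x, y) U V)
      - S.Mb y (S.A y (x - y)) (S.B y U.1 V.1 - S.B y U.2 V.2)|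
      ≤ 24 * C ^ 9 * r ^ 2 * ‖U‖ * ‖V‖ := by
  obtain ⟨f1, f2, -, f4, -⟩ := b.secant
  obtain ⟨-, m2, -, -⟩ := b.metric
  obtain ⟨pU, pU', -, -⟩ := norm_parts U
  obtain ⟨pV, pV', -, -⟩ := norm_parts V
  have hC := b.nonneg
  have hr := b.rnn
  have hUV : 0 ≤ ‖U‖ * ‖V‖ := mul_nonneg (norm_nonneg U) (norm_nonneg V)
  have k1 : ‖S.ddD (x, y) U V‖ ≤ 2 * C ^ 3 * (‖U‖ * ‖V‖) := by
    refine ((norm_sub_le _ _).trans (add_le_add ((S.B x).le_of_opNorm₂_le_of_le b.nBx pU pV)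
      ((S.B y).le_of_opNorm₂_le_of_le b.nB pU' pV'))).trans ?_
    nlinarith [mul_le_mul_of_nonneg_right b.cC hUV]
  have k2 : ‖S.ddD (x, y) U V - (S.B y U.1 V.1 - S.B y U.2 V.2)‖
      ≤ 2 * C ^ 3 * (‖U‖ * ‖V‖) * r := by
    rw [show S.ddD (x, y) U V - (S.B y U.1 V.1 - S.B y U.2 V.2)
      = (S.B x - S.B y) U.1 V.1 by simp [Chart.ddD]]
    refine (ContinuousLinearMap.le_of_opNorm₂_le_of_le _ b.dB pU pV).trans ?_
    nlinarith [mul_le_mul_of_nonneg_right b.cC (mul_nonneg hr hUV),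
      mul_nonneg (pow_nonneg hC 3) (mul_nonneg hr hUV)]
  exact (first_order (b := 1) (m2.trans_eq (by rw [mul_one]))
    (b.nM.trans (by linarith [b.cC, pow_nonneg hC 3])) f1 f2 f4 k1 k2).trans_eq (by ring)

theorem Chart.Bd.h_ddM (U V : Pt × Pt) :
    |S.ddMav (x, y) U V (S.D (x, y)) (S.D (x, y))| ≤ C ^ 9 * r ^ 2 * ‖U‖ * ‖V‖ := by
  obtain ⟨pU, pU', -, -⟩ := norm_parts U
  obtain ⟨pV, pV', -, -⟩ := norm_parts V
  have hm : ‖S.ddMav (x, y) U V‖ ≤ C * (‖U‖ * ‖V‖) := by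
    rw [Chart.ddMav, half_norm]
    have := (norm_add_le _ _).trans (add_le_add
      ((fderiv ℝ (fderiv ℝ S.Mb) x).le_of_opNorm₂_le_of_le b.nddMx pU pV)
      ((fderiv ℝ (fderiv ℝ S.Mb) y).le_of_opNorm₂_le_of_le b.nddM pU' pV'))
    linarith
  rw [← Real.norm_eq_abs]
  refine ((S.ddMav (x, y) U V).le_of_opNorm₂_le_of_le hm b.rdef.le b.rdef.le).trans ?_
  calc C * (‖U‖ * ‖V‖) * r * r = C * (r ^ 2 * ‖U‖ * ‖V‖) := by ring
    _ ≤ C ^ 9 * (r ^ 2 * ‖U‖ * ‖V‖) := mul_le_mul_of_nonneg_right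
        (le_self_pow₀ b.one (by norm_num))
        (mul_nonneg (mul_nonneg (sq_nonneg r) (norm_nonneg U)) (norm_nonneg V))
    _ = C ^ 9 * r ^ 2 * ‖U‖ * ‖V‖ := by ring

theorem Chart.Bd.h_le (hx : x ∈ S.U) (hy : y ∈ S.U) (U V : Pt × Pt) :
    |fderiv ℝ (fderiv ℝ S.q) (x, y) U V
      - (d20 (S.jet hy) (conv U) (conv V) + d21 (S.jet hy) (x - y) (conv U) (conv V))|
      ≤ 250 * C ^ 9 * r ^ 2 * ‖U‖ * ‖V‖ := by
  have h0 : 0 ≤ C ^ 9 * r ^ 2 * ‖U‖ * ‖V‖ := mul_nonneg (mul_nonneg (mul_nonneg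
    (pow_nonneg b.nonneg 9) (sq_nonneg r)) (norm_nonneg U)) (norm_nonneg V)
  have E1 := b.h_dM U V
  have E2 := b.h_dM V U
  have E3 := b.h_M U V
  have E4 := b.h_dd U V
  have E5 := b.h_ddM U V
  rw [Chart.fderiv2_q (p := (x, y)) ⟨hx, hy⟩, ← Chart.ident_h hy]
  rw [abs_le] at E1 E2 E3 E4 E5 ⊢
  constructor <;>
    linarith [E1.1, E1.2, E2.1, E2.2, E3.1, E3.2, E4.1, E4.2, E5.1, E5.2]

end

/-- The squared distance of a chart has the expansion, uniformly on a compact convex set. -/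
theorem Chart.exists_expansion (S : Chart F) {K : Set Pt} (hK : IsCompact K) (hKc : Convex ℝ K)
    (hKU : K ⊆ S.U) {c₀ : ℝ} (hc₀ : 0 < c₀)
    (hpos : ∀ x ∈ K, ∀ u, c₀ * ‖u‖ ^ 2 ≤ S.Mb x u u) :
    ∃ c C : ℝ, 0 < c ∧ ∀ x ∈ K, ∀ y ∈ K, ∀ (hy : y ∈ S.U) (s : ℝ),
      (S.pair s x hy).Expansion (x - y) ‖S.E x - S.E y‖ c C := by
  obtain ⟨C, hC1, hCL, hbd⟩ := S.exists_bd hK hKc hKU
  have hC : 0 ≤ C := zero_le_one.trans hC1
  have hc : 0 < min c₀ 1 / C ^ 2 := div_pos (lt_min hc₀ one_pos) (pow_pos (zero_lt_one.trans_le hC1) 2)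
  have hcm : min c₀ 1 / C ^ 2 ≤ min c₀ 1 :=
    div_le_self (le_of_lt (lt_min hc₀ one_pos)) (one_le_pow₀ hC1)
  have hC9 : C ≤ C ^ 9 := le_self_pow₀ hC1 (by norm_num)
  refine ⟨min c₀ 1 / C ^ 2, 250 * C ^ 9, hc, fun x hx y hy' hy s => ?_⟩
  have b := hbd x hx y hy'
  set r := ‖S.E x - S.E y‖ with hr
  have hxU := hKU hx
  have hC90 : 0 ≤ C ^ 9 := pow_nonneg hC 9
  have hL : ∀ v, ‖v‖ ≤ C * ‖S.A y v‖ := fun v => by
    have h := (S.L.hasFDerivAt.comp y ((Chart.hE hy).sub_const (S.E y))).unique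
      (((hasFDerivAt_id (𝕜 := ℝ) y).sub_const y).congr_of_eventuallyEq
        (Filter.eventuallyEq_of_mem (S.isOpen.mem_nhds hy) fun z hz => S.left z hz y hy))
    have hv : S.L (S.A y v) = v := congr($h v)
    calc ‖v‖ = ‖S.L (S.A y v)‖ := by rw [hv]
      _ ≤ C * ‖S.A y v‖ := (S.L.le_opNorm _).trans
          (mul_le_mul_of_nonneg_right hCL (norm_nonneg _))
  have hqq : S.q (x, y) = 2⁻¹ * (S.Mb x (S.D (x, y)) (S.D (x, y))
      + S.Mb y (S.D (x, y)) (S.D (x, y))) := rfl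
  exact
    { rnonneg := b.rnn
      rle := b.rle.trans (by linarith)
      wle := b.wle.trans (mul_le_mul_of_nonneg_right (by linarith) b.rnn)
      qlow := by
        show min c₀ 1 / C ^ 2 * (r ^ 2 + s ^ 2) ≤ S.q (x, y) + s ^ 2
        have h1 := hpos x hx (S.D (x, y))
        have h2 := hpos y hy' (S.D (x, y))
        rw [show ‖S.D (x, y)‖ = r from rfl] at h1 h2
        rw [hqq]
        nlinarith [mul_le_mul_of_nonneg_right (hcm.trans (min_le_left _ _)) (sq_nonneg r),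
          mul_le_mul_of_nonneg_right (hcm.trans (min_le_right _ _)) (sq_nonneg s)]
      qhigh := by
        show S.q (x, y) ≤ 250 * C ^ 9 * r ^ 2
        rw [S.q_eq]
        refine (Real.le_norm_self _).trans (((S.Mav (x, y)).le_of_opNorm₂_le_of_le b.metric.1
          b.rdef.le b.rdef.le).trans ?_)
        nlinarith [mul_le_mul_of_nonneg_right hC9 (sq_nonneg r), mul_nonneg hC90 (sq_nonneg r)]
      qw := by
        show |S.q (x, y) - ev (S.g y) (x - y) (x - y)| ≤ 250 * C ^ 9 * r ^ 3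
        rw [Chart.ev_g]
        exact b.qw_le.trans (by nlinarith [mul_nonneg hC90 (pow_nonneg b.rnn 3)])
      aexp := fun V => (b.a_le hxU hy V).trans
        (by nlinarith [mul_nonneg hC90 (mul_nonneg (pow_nonneg b.rnn 3) (norm_nonneg V))])
      hexp := fun U V => b.h_le hxU hy U V
      jexp := fun v => by
        show ‖S.J x *ᵥ v - S.J y *ᵥ v - S.jd y (x - y) *ᵥ v‖ ≤ _
        rw [← sub_mulVec, ← sub_mulVec]
        refine (norm_mulVec_le (b := C * r ^ 2) b.eJ v).trans ?_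
        nlinarith [mul_le_mul_of_nonneg_right hC9 (mul_nonneg (sq_nonneg r) (norm_nonneg v)),
          mul_nonneg hC90 (mul_nonneg (sq_nonneg r) (norm_nonneg v))]
      jdexp := fun z v => by
        show ‖S.jd x z *ᵥ v - S.jd y z *ᵥ v‖ ≤ _
        rw [← sub_mulVec]
        refine (norm_mulVec_le (b := C * r * ‖z‖)
          ((ContinuousLinearMap.le_opNorm (fderiv ℝ S.JF x - fderiv ℝ S.JF y) z).trans
            (mul_le_mul_of_nonneg_right b.ddJ (norm_nonneg z))) v).trans ?_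
        have h0 : 0 ≤ r * ‖z‖ * ‖v‖ := mul_nonneg (mul_nonneg b.rnn (norm_nonneg z)) (norm_nonneg v)
        nlinarith [mul_le_mul_of_nonneg_right hC9 h0, mul_nonneg hC90 h0]
      jbd := fun v => by
        show ‖S.J y *ᵥ v‖ ≤ _
        refine (norm_mulVec_le (b := C) b.nJ v).trans ?_
        nlinarith [mul_le_mul_of_nonneg_right hC9 (norm_nonneg v), mul_nonneg hC90 (norm_nonneg v)]
      jdbd := fun z v => by
        show ‖S.jd y z *ᵥ v‖ ≤ _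
        refine (norm_mulVec_le (b := C * ‖z‖)
          ((fderiv ℝ S.JF y).le_of_opNorm_le b.ndJ z) v).trans ?_
        have h0 : 0 ≤ ‖z‖ * ‖v‖ := mul_nonneg (norm_nonneg z) (norm_nonneg v)
        nlinarith [mul_le_mul_of_nonneg_right hC9 h0, mul_nonneg hC90 h0]
      glow := fun v => by
        show _ ≤ ev (S.g y) v v
        rw [Chart.ev_g, div_mul_eq_mul_div, div_le_iff₀ (by positivity)]
        calc min c₀ 1 * ‖v‖ ^ 2 ≤ c₀ * (C * ‖S.A y v‖) ^ 2 := mul_le_mul (min_le_left _ _)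
              (pow_le_pow_left₀ (norm_nonneg v) (hL v) 2) (sq_nonneg _) hc₀.le
          _ = c₀ * ‖S.A y v‖ ^ 2 * C ^ 2 := by ring
          _ ≤ _ := mul_le_mul_of_nonneg_right (hpos y hy' _) (sq_nonneg C)
      gbd := fun u v => by
        show |ev (S.g y) u v| ≤ _
        rw [Chart.ev_g, ← Real.norm_eq_abs]
        refine ((S.Mb y).le_of_opNorm₂_le_of_le b.nM ((S.A y).le_of_opNorm_le b.nA u)
          ((S.A y).le_of_opNorm_le b.nA v)).trans ?_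
        have h0 : 0 ≤ ‖u‖ * ‖v‖ := mul_nonneg (norm_nonneg u) (norm_nonneg v)
        nlinarith [mul_le_mul_of_nonneg_right (pow_le_pow_right₀ hC1 (by norm_num : 3 ≤ 9)) h0,
          mul_nonneg hC90 h0]
      gdbd := fun z u v => by
        show |ev (S.gd y z) u v| ≤ _
        rw [Chart.ev_gd, Chart.gdF_apply]
        have hu := (S.A y).le_of_opNorm_le b.nA u
        have hv := (S.A y).le_of_opNorm_le b.nA v
        have hzu := (S.B y).le_of_opNorm₂_le_of_le b.nB le_rfl (le_refl ‖u‖) (x := z) (y := u)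
        have hzv := (S.B y).le_of_opNorm₂_le_of_le b.nB le_rfl (le_refl ‖v‖) (x := z) (y := v)
        refine (abs_add_three _ _ _).trans ?_
        rw [← Real.norm_eq_abs, ← Real.norm_eq_abs, ← Real.norm_eq_abs]
        refine (add_le_add (add_le_add
          ((S.dM y z).le_of_opNorm₂_le_of_le ((S.dM y).le_of_opNorm_le b.ndM z) hu hv)
          ((S.Mb y).le_of_opNorm₂_le_of_le b.nM hzu hv))
          ((S.Mb y).le_of_opNorm₂_le_of_le b.nM hu hzv)).trans ?_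
        have h0 : 0 ≤ ‖z‖ * ‖u‖ * ‖v‖ :=
          mul_nonneg (mul_nonneg (norm_nonneg z) (norm_nonneg u)) (norm_nonneg v)
        nlinarith [mul_le_mul_of_nonneg_right (pow_le_pow_right₀ hC1 (by norm_num : 3 ≤ 9)) h0,
          mul_nonneg hC90 h0] }

end Vale.Agent.P204.Core.Whitney
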